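import Vale.Agent.P241.H441.Tens
import Vale.Agent.P241.EUL.Frame
import Vale.Agent.P241.H46.Roots2
import Vale.Agent.P241.H122.Char
import Vale.Agent.P251.Q.TPowClass

/-!
# P241, part EUL-6 (T3): nonabelian `p`-groups

`prod_eq_zero`: if the representation `ρ` of dimension `m > 0` satisfies `ρ ⊗ χ ≅ ρ` for all `χ` in
a group `S` of more than `m` characters, then a power (depending on `|S|` only) of the product of
the Euler classes of the nontrivial `χ ∈ S` over `B = E₀ / V` is zero.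
-/

set_option linter.unusedSectionVars false
set_option linter.style.haveILetI false

open CategoryTheory MonoidalCategory OnePoint Topology Matrix
open Vale.Agent.P251.G Vale.Agent.P251.G.LC Vale.Agent.P251.Q Vale.Agent.P241.EUL

universe v

noncomputable section

namespace Vale.Agent.P241.H441

open MultTheory Polynomial

/-! ### The isometry -/

section alg

variable {V : Type} [Group V] {κ lam : Type} [Fintype κ] [DecidableEq κ] [Fintype lam]
  [DecidableEq lam] [Unique lam]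

/-- the matrix of the isomorphism `ρ → ρ ⊗ χ` -/
def tw (P : Matrix κ κ ℂ) : Matrix (κ × lam) κ ℂ := fun a j => P a.1 j

theorem tw_left {P : Matrix κ κ ℂ} (hP : Pᴴ * P = 1) :
    (tw (lam := lam) P)ᴴ * tw (lam := lam) P = 1 := by
  rw [← hP]
  ext i j
  simp only [Matrix.mul_apply, conjTranspose_apply, tw]
  rw [Fintype.sum_prod_type]
  refine Finset.sum_congr rfl fun k _ => ?_
  rw [Fintype.sum_unique]

theorem tw_right {P : Matrix κ κ ℂ} (hP : P * Pᴴ = 1) :
    tw (lam := lam) P * (tw (lam := lam) P)ᴴ = 1 := by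
  ext ⟨i, a⟩ ⟨j, b⟩
  have h := congrFun (congrFun hP i) j
  have hab : a = b := Subsingleton.elim a b
  subst hab
  simp only [Matrix.mul_apply, conjTranspose_apply, tw] at h ⊢
  rw [h, Matrix.one_apply, Matrix.one_apply]
  simp

theorem tw_comm {ρ : Rep V κ} {χ : Rep V lam} {P : Matrix κ κ ℂ} (v : V)
    (h : P * (ρ v : Matrix κ κ ℂ) =
      (χ v : Matrix lam lam ℂ) default default • ((ρ v : Matrix κ κ ℂ) * P)) :
    tw P * (ρ v : Matrix κ κ ℂ) = (ρ.kron χ v : Matrix (κ × lam) (κ × lam) ℂ) * tw P := by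
  ext ⟨i, a⟩ j
  have h1 := congrFun (congrFun h i) j
  have ha : a = default := Subsingleton.elim _ _
  subst ha
  rw [Rep.kron_coe]
  simp only [Matrix.mul_apply, tw, Matrix.smul_apply, smul_eq_mul, kroneckerMap_apply] at h1 ⊢
  rw [h1, Fintype.sum_prod_type, Finset.mul_sum]
  refine Finset.sum_congr rfl fun k _ => ?_
  rw [Fintype.sum_unique]
  ring

end alg

/-! ### The bundles -/

variable {E : MultTheory.{v}} (o : Orientation E) [E.GoodGr]
variable {B : LC} [CompactSpace B] [hB : GoodBase E B]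

/-- Euler classes of isomorphic bundles -/
theorem eu_bunIsom {I J : Type} [Fintype I] [Fintype J] {n : ℕ} {W : Bun B I} {W' : Bun B J}
    (φ : W.Isom W') (h : W.IsRank n) (h' : W'.IsRank n) : o.eu W h = o.eu W' h' := by
  haveI := hB.tot W h
  haveI := hB.tot W' h'
  rw [o.eu_eq_e, o.eu_eq_e]
  exact e_isom o φ h h'

theorem isNilpotent_eu {I : Type} [Fintype I] (L : Bun B I) (hL : L.IsRank 1) :
    IsNilpotent (o.eu L hL) := by
  haveI := hB.tot L hL
  rw [o.eu_eq_e]
  exact isNilpotent_e o L hL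

section twist

variable {V : Type} [Group V] {E₀ : Type} [TopologicalSpace E₀] [MulAction V E₀] {q : E₀ → B}
  (hq : IsQuo V q) {κ lam ι ι' : Type} [Fintype κ] [DecidableEq κ] [Fintype lam]
  [DecidableEq lam] [Unique lam] [Fintype ι] [Fintype ι']
  {ρ : Rep V κ} {χ : Rep V lam} (F : Frame E₀ ρ ι) (F' : Frame E₀ χ ι')

/-- the bundles of `ρ ⊗ χ` and of `ρ` are isometric -/
def twIsom {P : Matrix κ κ ℂ} (h1 : Pᴴ * P = 1) (h2 : P * Pᴴ = 1)
    (h : ∀ v, P * (ρ v : Matrix κ κ ℂ) =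
      (χ v : Matrix lam lam ℂ) default default • ((ρ v : Matrix κ κ ℂ) * P)) :
    ((F.bun hq).tensor (F'.bun hq)).Isom (F.bun hq) :=
  (Bun.Isom.ofEq (fun b => by
    obtain ⟨e, rfl⟩ := hq.surj b
    have h4 : ((F.bun hq).tensor (F'.bun hq)) = (F.kron F').bun hq := (F.bun_kron F' hq).symm
    rw [h4, Frame.bun_P, Frame.bun_P, Frame.inter_R, conjTranspose_mul, Matrix.mul_assoc,
      ← Matrix.mul_assoc (tw P), tw_right h2, Matrix.one_mul])).trans
  (((F.kron F').inter (tw P) (tw_left h1) (fun v => tw_comm v (h v))).bunIsom F hq)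

theorem eu_twist {m : ℕ} (hm : Fintype.card κ = m) {P : Matrix κ κ ℂ} (h1 : Pᴴ * P = 1)
    (h2 : P * Pᴴ = 1)
    (h : ∀ v, P * (ρ v : Matrix κ κ ℂ) =
      (χ v : Matrix lam lam ℂ) default default • ((ρ v : Matrix κ κ ℂ) * P))
    (hT : ((F.bun hq).tensor (F'.bun hq)).IsRank m) :
    o.eu ((F.bun hq).tensor (F'.bun hq)) hT = o.eu (F.bun hq) (F.isRank hq hm) :=
  eu_bunIsom o (twIsom hq F F' h1 h2 h) _ _

end twist

/-! ### The roots lemma -/

/-- **The algebraic step**: `R` a bundle of rank `m > 0`, `L a` (`a ∈ S`) line bundles with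
`e(R ⊗ L a) = e(R)`, `m < |S|`. -/
theorem prod_pow_eq_zero {S : Type} [CommGroup S] [Fintype S] [DecidableEq S] {I : Type}
    [Fintype I] {m : ℕ} (hm : 0 < m) (hS : m < Fintype.card S) (R : Bun B I) (hR : R.IsRank m)
    {K : S → Type} [∀ a, Fintype (K a)] (L : ∀ a, Bun B (K a)) (hL : ∀ a, (L a).IsRank 1)
    (hT : ∀ a, (R.tensor (L a)).IsRank m)
    (he : ∀ a, o.eu (R.tensor (L a)) (hT a) = o.eu R hR)
    (hsub : ∀ a b, ∃ u : (E.U B)ˣ, o.eu (L a) (hL a) - o.eu (L b) (hL b) =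
      u * o.eu (L (a / b)) (hL (a / b))) :
    (∏ a ∈ Finset.univ.erase (1 : S), o.eu (L a) (hL a)) ^ (Fintype.card S).choose 2 = 0 := by
  classical
  -- a common bound
  obtain ⟨N, hN⟩ : ∃ N : ℕ, m ≤ N ∧ ∀ a, Fintype.card (K a) ≤ N + 1 := by
    refine ⟨m + ∑ a, Fintype.card (K a), by omega, fun a => ?_⟩
    have := Finset.single_le_sum (f := fun a => Fintype.card (K a)) (fun _ _ => Nat.zero_le _)
      (Finset.mem_univ a)
    omega
  obtain ⟨f, hf⟩ : ∃ f : (E.U B)[X], f = ∑ i ∈ Finset.range (N + 1), C (o.cc R hR i) * X ^ i -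
    C (o.eu R hR) := ⟨_, rfl⟩
  have hroot : ∀ a, f.eval (o.eu (L a) (hL a)) = 0 := by
    intro a
    rw [hf, eval_sub, eval_C, eval_finsetSum]
    have h1 := eu_tensor_line o N R hR (L a) (hL a) (hN.2 a) (hT a)
    rw [he a] at h1
    rw [h1, sub_eq_zero]
    refine Finset.sum_congr rfl fun i _ => ?_
    simp
  have hcoeff : f.coeff m = o.cc R hR m := by
    rw [hf, coeff_sub, finsetSum_coeff, coeff_C, if_neg hm.ne', sub_zero,
      Finset.sum_eq_single m]
    · simp
    · intro n _ hn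
      simp [coeff_C_mul, coeff_X_pow, hn.symm]
    · intro h
      exact absurd (Finset.mem_range.2 (by omega)) h
  have hu : IsUnit (f.coeff m) := by
    rw [hcoeff]
    exact isUnit_cc o R hR
  have key := H46.roots_unit (R := E.U B) (ι := Additive S)
    (fun a => o.eu (L a.toMul) (hL a.toMul)) (fun a => isNilpotent_eu o _ _)
    (fun a b => hsub a.toMul b.toMul) f (fun a => hroot a.toMul) m
    (by rw [Fintype.card_congr (Additive.toMul (α := S))]; exact hS) hu
  rw [Fintype.card_congr (Additive.toMul (α := S))] at key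
  rw [← key]
  congr 1
  refine Finset.prod_bij (fun a _ => Additive.ofMul a) (fun a ha => ?_) (fun a _ b _ h => h)
    (fun a ha => ⟨a.toMul, ?_, rfl⟩) (fun a _ => rfl)
  · rw [Finset.mem_erase] at ha ⊢
    exact ⟨ha.1, Finset.mem_univ _⟩
  · rw [Finset.mem_erase] at ha ⊢
    exact ⟨ha.1, Finset.mem_univ _⟩

/-- **T3**, the case of a nonabelian `p`-group. -/
theorem prod_eq_zero {V : Type} [Group V] {E₀ : Type} [TopologicalSpace E₀] [MulAction V E₀]
    {q : E₀ → B} (hq : IsQuo V q) {κ ι : Type} [Fintype κ] [DecidableEq κ] [Fintype ι]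
    {ρ : Rep V κ} (F : Frame E₀ ρ ι) {m : ℕ} (hκ : Fintype.card κ = m) (hm : 0 < m)
    {S : Type} [CommGroup S] [Fintype S] [DecidableEq S] (hS : m < Fintype.card S)
    {lam : Type} [Fintype lam] [DecidableEq lam] [Unique lam] (χ : S → Rep V lam)
    (htw : ∀ a, ∃ P : Matrix.unitaryGroup κ ℂ, ∀ v,
      ((P * ρ v * P⁻¹ : Matrix.unitaryGroup κ ℂ) : Matrix κ κ ℂ) =
        (χ a v : Matrix lam lam ℂ) default default • (ρ v : Matrix κ κ ℂ))
    {K : S → Type} [∀ a, Fintype (K a)] (G : ∀ a, Frame E₀ (χ a) (K a))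
    (hlam : Fintype.card lam = 1)
    (hsub : ∀ a b, ∃ u : (E.U B)ˣ, o.eu ((G a).bun hq) ((G a).isRank hq hlam) -
      o.eu ((G b).bun hq) ((G b).isRank hq hlam) =
      u * o.eu ((G (a / b)).bun hq) ((G (a / b)).isRank hq hlam)) :
    (∏ a ∈ Finset.univ.erase (1 : S), o.eu ((G a).bun hq) ((G a).isRank hq hlam)) ^
      (Fintype.card S).choose 2 = 0 := by
  have hT : ∀ a, ((F.bun hq).tensor ((G a).bun hq)).IsRank m := by
    intro a
    have := (F.isRank hq hκ).tensor ((G a).isRank hq hlam)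
    rwa [mul_one] at this
  refine prod_pow_eq_zero o hm hS (F.bun hq) (F.isRank hq hκ) (fun a => (G a).bun hq)
    (fun a => (G a).isRank hq hlam) hT (fun a => ?_) hsub
  obtain ⟨P, hP⟩ := htw a
  have h1 : (P : Matrix κ κ ℂ)ᴴ * (P : Matrix κ κ ℂ) = 1 := (Matrix.mem_unitaryGroup_iff').1 P.2
  have h2 : (P : Matrix κ κ ℂ) * (P : Matrix κ κ ℂ)ᴴ = 1 := (Matrix.mem_unitaryGroup_iff).1 P.2
  refine eu_twist o hq F (G a) hκ h1 h2 (fun v => ?_) (hT a)
  have h3 := hP v
  have h4 : ((P * ρ v * P⁻¹ : Matrix.unitaryGroup κ ℂ) : Matrix κ κ ℂ) =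
      (P : Matrix κ κ ℂ) * (ρ v : Matrix κ κ ℂ) * (P : Matrix κ κ ℂ)ᴴ := rfl
  rw [h4] at h3
  have h5 := congrArg (· * (P : Matrix κ κ ℂ)) h3
  simp only [Matrix.mul_assoc, h1, Matrix.mul_one, Matrix.smul_mul] at h5
  exact h5

end Vale.Agent.P241.H441
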