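import Vale.Agent.P251.Q.Gen

/-!
# P241, part EUL: the Euler class of `V ⊗ L`, and the leading coefficient

* `eu_tensor_line`: `e(V ⊗ L) = ∑ i ≤ N, c_i(V) e(L)^i` for a line bundle `L` over a compact base;
* `isUnit_cc`: `c_n(V)` is a unit, `n` the rank of `V`.
-/

set_option linter.unusedSectionVars false
set_option linter.style.haveILetI false

open CategoryTheory MonoidalCategory OnePoint Topology Matrix
open Vale.Agent.P251.G Vale.Agent.P251.G.LC Vale.Agent.P251.Q

universe v

noncomputable section

namespace Vale.Agent.P241.H441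

open MultTheory

variable {E : MultTheory.{v}} (o : Orientation E) [E.GoodGr]
variable {X : LC} [CompactSpace X] [E.Good X] {I K : Type} [Fintype I] [Fintype K] {n : ℕ}

theorem mapAlg_pow' {X Y : LC} [CompactSpace X] [CompactSpace Y] [E.Good X] [E.Good Y]
    (f : C(X, Y)) (y : E.U Y) (k : ℕ) : E.map (cmap f) (y ^ k) = E.map (cmap f) y ^ k :=
  map_pow (E.mapAlg f) y k

/-- pull back of an exterior product along `(id, g)` -/
theorem map_pair_cross {X Y : LC} [CompactSpace X] [CompactSpace Y] [E.Good X] [E.Good Y]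
    (g : C(X, Y)) (x : E.U X) (y : E.U Y) :
    E.map (cmap (pairC (ContinuousMap.id X) g)) (E.cross x y) = x * E.map (cmap g) y := by
  rw [Orientation.cross_eq_cmap_mul, map_mul', ← MultTheory.map_comp, ← MultTheory.map_comp,
    Orientation.cmap_comp', Orientation.cmap_comp']
  have h1 : cmap ((fstC X Y).comp (pairC (ContinuousMap.id X) g)) = 𝟙 X := by
    apply LC.hom_ext; intro a; rfl
  have h2 : (sndC X Y).comp (pairC (ContinuousMap.id X) g) = g := rfl
  rw [h1, h2, MultTheory.map_id]

theorem eu_tensor_line_fin (N : ℕ) (V : Bun X I) (hV : V.IsRank n) (L : Bun X (Fin (N + 1)))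
    (hL : L.IsRank 1) (hT : (V.tensor L).IsRank n) :
    o.eu (V.tensor L) hT = ∑ i ∈ Finset.range (N + 1), o.cc V hV i * o.eu L hL ^ i := by
  let g : C(X, CPn N) := L.toGr hL
  have h1 := o.exp_cc V hV N
  have h2 : E.map (cmap (pairC (ContinuousMap.id X) g)) (o.eT N V hV) = o.eu (V.tensor L) hT := by
    unfold Orientation.eT
    rw [o.map_eu]
    rfl
  have h3 : E.map (cmap g) (o.zc N) = o.eu L hL := rfl
  unfold Orientation.IsExp at h1
  rw [← h2, h1, map_sum]
  refine Finset.sum_congr rfl fun i _ => ?_
  rw [map_pair_cross, mapAlg_pow', h3]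

/-- **The Euler class of the tensor product with a line bundle.** -/
theorem eu_tensor_line (N : ℕ) (V : Bun X I) (hV : V.IsRank n) (L : Bun X K) (hL : L.IsRank 1)
    (hK : Fintype.card K ≤ N + 1) (hT : (V.tensor L).IsRank n) :
    o.eu (V.tensor L) hT = ∑ i ∈ Finset.range (N + 1), o.cc V hV i * o.eu L hL ^ i := by
  classical
  let w : K → Fin (N + 1) := fun k => Fin.castLE hK (Fintype.equivFin K k)
  have hw : Function.Injective w := (Fin.castLE_injective hK).comp (Fintype.equivFin K).injective
  have hu := injMat_isom hw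
  let L' : Bun X (Fin (N + 1)) := L.image (fun x => injMat w * L.P x)
    (continuous_const.matrix_mul L.cont) (fun x => by
      rw [conjTranspose_mul, Matrix.mul_assoc, ← Matrix.mul_assoc (injMat w)ᴴ, hu, Matrix.one_mul,
        L.herm, L.idem])
  have hP : ∀ x, L'.P x = injMat w * L.P x * (injMat w)ᴴ := by
    intro x
    change injMat w * L.P x * (injMat w * L.P x)ᴴ = _
    rw [conjTranspose_mul, L.herm, Matrix.mul_assoc, ← Matrix.mul_assoc (L.P x), L.idem,
      ← Matrix.mul_assoc]
  have hL' : L'.IsRank 1 := by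
    intro x
    rw [hP, trace_mul_comm, ← Matrix.mul_assoc, hu, Matrix.one_mul]
    exact hL x
  have hT' : (V.tensor L').IsRank n := by
    have := hV.tensor hL'
    rwa [mul_one] at this
  rw [← o.eu_isom (injMat w) hu L hL L' hL' hP, ← eu_tensor_line_fin o N V hV L' hL' hT']
  refine (o.eu_isom (kroneckerMap (· * ·) 1 (injMat w)) (Orientation.kron_isom isom_one hu)
    _ _ _ _ ?_).symm
  intro x
  change kroneckerMap (· * ·) (V.P x) (L'.P x) = _ * kroneckerMap (· * ·) (V.P x) (L.P x) * _
  rw [← Orientation.kron_conj, hP]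
  congr 1
  simp

/-! ### The leading coefficient -/

/-- at some point of a nonempty Grassmannian, `c_n = 1` -/
theorem exists_point_cG : ∀ (n : ℕ) (I : Type) [Fintype I], IsEmpty (Gr n I) ∨
    ∃ x : Gr n I, E.map (point (X := LC.of (Gr n I)) x) (o.cG n I n) = E.one := by
  refine gr_induction ?_ ?_ ?_ ?_
  · intro I _
    right
    refine ⟨default, ?_⟩
    rw [o.cG_zero]
    unfold Orientation.eGr
    rw [← MultTheory.map_comp]
    refine o.tau_zero _ ?_
    intro u
    exact ⟨Gr.zero (default : Gr 0 I), rfl, rfl, rfl⟩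
  · intro n I _ _
    left
    infer_instance
  · intro n I _ _ h1 h2
    rcases h1 with h1 | ⟨x, hx⟩
    · rcases h2 with h2 | ⟨x, hx⟩
      · left
        refine ⟨fun Q => ?_⟩
        by_cases h : dd (Gr.P Q) = 1
        · have h3 : Q ∈ Set.range (Gr.addOne : Gr n I → _) := by
            rw [Gr.range_addOne]
            exact h
          obtain ⟨y, -⟩ := h3
          exact h1.false y
        · obtain ⟨y, -⟩ := exists_graph h
          exact h2.false y.gr
      · right
        refine ⟨Gr.addZero x, ?_⟩
        have h3 : point (X := LC.of (Gr (n + 1) (I ⊕ Unit))) (Gr.addZero x) =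
            point (X := LC.of (Gr (n + 1) I)) x ≫ cmap (addZeroC (n + 1) I) := by
          apply LC.hom_ext; intro u; rfl
        rw [h3, MultTheory.map_comp, o.map_addZero_cG, hx]
    · right
      refine ⟨Gr.addOne x, ?_⟩
      have h3 : point (X := LC.of (Gr (n + 1) (I ⊕ Unit))) (Gr.addOne x) =
          point (X := LC.of (Gr n I)) x ≫ cmap (addOneC n I) := by
        apply LC.hom_ext; intro u; rfl
      rw [h3, MultTheory.map_comp, o.map_addOne_cG, if_neg (Nat.succ_ne_zero n),
        Nat.add_sub_cancel, hx]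
  · intro n I J _ _ _ _ e h
    rcases h with h | ⟨x, hx⟩
    · left
      exact ⟨fun y => h.false (grMapC n (injMat e.symm) (injMat_isom e.symm.injective) y)⟩
    · right
      refine ⟨grMapC n (injMat e) (injMat_isom e.injective) x, ?_⟩
      have h3 : point (X := LC.of (Gr n J)) (grMapC n (injMat e) (injMat_isom e.injective) x) =
          point (X := LC.of (Gr n I)) x ≫ grMap n (injMat e) (injMat_isom e.injective) := by
        apply LC.hom_ext; intro u; rfl
      rw [h3, MultTheory.map_comp, o.map_cG, hx]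

/-- a polynomial in nilpotent elements is its constant coefficient up to a nilpotent element -/
theorem isNilpotent_eval₂_sub {A S : Type*} [CommRing A] [CommRing S] (f : A →+* S) {σ : Type*}
    (x : σ → S) (hx : ∀ i, IsNilpotent (x i)) (P : MvPolynomial σ A) :
    IsNilpotent (MvPolynomial.eval₂ f x P - f (MvPolynomial.constantCoeff P)) := by
  induction P using MvPolynomial.induction_on with
  | C a => simp
  | add p q hp hq =>
    have h := (Commute.all _ _).isNilpotent_add hp hq
    have h1 : MvPolynomial.eval₂ f x (p + q) - f (MvPolynomial.constantCoeff (p + q)) =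
        (MvPolynomial.eval₂ f x p - f (MvPolynomial.constantCoeff p)) +
        (MvPolynomial.eval₂ f x q - f (MvPolynomial.constantCoeff q)) := by
      rw [MvPolynomial.eval₂_add, map_add, map_add]; ring
    rw [h1]
    exact h
  | mul_X p i hp =>
    have h1 : MvPolynomial.eval₂ f x (p * MvPolynomial.X i) -
        f (MvPolynomial.constantCoeff (p * MvPolynomial.X i)) =
        MvPolynomial.eval₂ f x p * x i := by
      simp
    rw [h1]
    exact (Commute.all _ _).isNilpotent_mul_left (hx i)

theorem isUnit_cG (n : ℕ) (I : Type) [Fintype I] : IsUnit (o.cG n I n) := by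
  rcases exists_point_cG o n I with h | ⟨x, hx⟩
  · haveI : IsEmpty (LC.of (Gr n I)) := h
    have h1 : ∀ y : E.U (LC.of (Gr n I)), y = 0 := fun y => MultTheory.eq_zero_of_isEmpty y
    exact ⟨⟨0, 0, (h1 _).trans (h1 _).symm, (h1 _).trans (h1 _).symm⟩, (h1 _).symm⟩
  · -- the class on `pt ⊗ Gr`
    let B : LC := 𝟙_ LC
    let y : E.U (B ⊗ LC.of (Gr n I)) := E.mapAlg (sndC B (LC.of (Gr n I))) (o.cG n I n)
    obtain ⟨P, hP⟩ := o.exists_eval₂ n I (B := B) y
    let φ : E.U B →+* E.U (B ⊗ LC.of (Gr n I)) := (E.mapAlg (fstC B (LC.of (Gr n I))) : _ →+* _)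
    have hnil : ∀ i : Fin n, IsNilpotent (E.map (cmap (sndC B (LC.of (Gr n I)))) (o.cG n I i)) :=
      fun i => (o.isNilpotent_cG n I i i.2).map (E.mapAlg (sndC B (LC.of (Gr n I))))
    have h1 := isNilpotent_eval₂_sub φ _ hnil P
    rw [← hP] at h1
    -- restrict to the point
    let s : C(B, (B ⊗ LC.of (Gr n I) : LC)) := pairC (ContinuousMap.id B)
      (⟨fun _ => x, continuous_const⟩ : C(B, LC.of (Gr n I)))
    have h2 := h1.map (E.mapAlg s)
    have e1 : E.mapAlg s y = 1 := by
      change E.map (cmap s) (E.map (cmap (sndC B (LC.of (Gr n I)))) (o.cG n I n)) = _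
      rw [← MultTheory.map_comp]
      refine Eq.trans ?_ (hx.trans ?_)
      · exact congrArg (fun k => E.map k _) (LC.hom_ext fun _ => rfl)
      · change E.one = E.oneU B
        have h3 : cmap (toPt B) = 𝟙 B := LC.hom_ext fun _ => rfl
        unfold MultTheory.oneU
        rw [h3, MultTheory.map_id]
    have e2 : ∀ a : E.U B, E.mapAlg s (φ a) = a := by
      intro a
      change E.map (cmap s) (E.map (cmap (fstC B (LC.of (Gr n I)))) a) = a
      rw [← MultTheory.map_comp]
      have h3 : cmap s ≫ cmap (fstC B (LC.of (Gr n I))) = 𝟙 B := LC.hom_ext fun _ => rfl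
      rw [h3, MultTheory.map_id]
    rw [map_sub, e1, e2] at h2
    have h4 : IsUnit (MvPolynomial.constantCoeff P) := by
      have := IsNilpotent.isUnit_one_sub h2
      rwa [sub_sub_cancel] at this
    have h5 : IsUnit y := by
      have h6 := (h4.map φ)
      have h7 : y = φ (MvPolynomial.constantCoeff P) + (y - φ (MvPolynomial.constantCoeff P)) := by
        ring
      rw [h7]
      exact IsNilpotent.isUnit_add_left_of_commute h1 h6 (Commute.all _ _)
    -- back to `Gr`
    let t : C(LC.of (Gr n I), (B ⊗ LC.of (Gr n I) : LC)) :=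
      pairC (toPt (LC.of (Gr n I))) (ContinuousMap.id _)
    have h6 : E.mapAlg t y = o.cG n I n := by
      change E.map (cmap t) (E.map (cmap (sndC B (LC.of (Gr n I)))) (o.cG n I n)) = _
      rw [← MultTheory.map_comp]
      have h3 : cmap t ≫ cmap (sndC B (LC.of (Gr n I))) = 𝟙 _ := LC.hom_ext fun _ => rfl
      rw [h3, MultTheory.map_id]
    rw [← h6]
    exact h5.map (E.mapAlg t)

/-- **The leading coefficient is a unit.** -/
theorem isUnit_cc (V : Bun X I) (hV : V.IsRank n) : IsUnit (o.cc V hV n) := by
  have h1 : E.mapAlg (V.toGr hV : C(X, LC.of (Gr n I))) (o.cG n I n) = o.cc V hV n := by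
    unfold Orientation.cG
    rw [mapAlg_apply, o.map_cc]
    rfl
  rw [← h1]
  exact (isUnit_cG o n I).map _

end Vale.Agent.P241.H441
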